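import Vale.Agent.N090.Nets
import Mathlib.Combinatorics.SimpleGraph.Cayley

/-! Every group which maps onto the integers has a Cayley graph whose free space fails the bounded
approximation property. -/

namespace Vale.Agent.N090

open Vale.Agent.P090

set_option maxSynthPendingDepth 3

noncomputable section

section Local

variable {M N : Type} [MetricSpace M] [MetricSpace N] {o : M}

/-- Local form of the transfer of the strong failure. -/
theorem fails_local (hF : H117.Fails M o) (C C' D : ℝ) (hC : 0 ≤ C) (hC' : 0 ≤ C')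
    (h : ∀ A : Finset M, ∃ (f : M → N) (g : N → ↥(LipSpan M o)),
      (∀ x y, dist (f x) (f y) ≤ C * dist x y) ∧ (∀ x y, ‖g x - g y‖ ≤ C' * dist x y) ∧
      ∀ x ∈ A, ‖g (f x) - deltaF o x‖ ≤ D) (o' : N) : H117.Fails N o' := by
  classical
  intro lam r
  obtain ⟨A, hA⟩ := hF (C' * (lam * C)) (C' * (2 * r) + 2 * D)
  obtain ⟨f, g, hf, hg, hgf⟩ := h (insert o A)
  refine ⟨(insert o A).image f, fun T hT hn => ?_⟩
  by_contra hcon
  push Not at hcon
  have hlam : 0 ≤ lam := (norm_nonneg T).trans hn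
  have hdf : ∀ x y, ‖deltaF o' (f x) - deltaF o' (f y)‖ ≤ C * dist x y := fun x y =>
    (norm_deltaF_sub_le _ _).trans (hf x y)
  set F : ↥(LipSpan M o) →L[ℝ] ↥(LipSpan N o') :=
    H117.push o (fun x => deltaF o' (f x)) C hC hdf with hFdef
  set G : ↥(LipSpan N o') →L[ℝ] ↥(LipSpan M o) := H117.push o' g C' hC' hg with hGdef
  have hT' : IsCompactOperator (G.comp (T.comp F)) := by
    have h1 : IsCompactOperator (T ∘ F) := hT.comp_clm F
    exact IsCompactOperator.clm_comp h1 G
  have hn' : ‖G.comp (T.comp F)‖ ≤ C' * (lam * C) := by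
    refine (G.opNorm_comp_le _).trans ?_
    refine mul_le_mul (H117.norm_push_le g C' hC' hg) ?_ (norm_nonneg _) hC'
    refine (T.opNorm_comp_le _).trans ?_
    exact mul_le_mul hn (H117.norm_push_le _ C hC hdf) (norm_nonneg _) hlam
  obtain ⟨x, hx, hlt⟩ := hA _ hT' hn'
  refine absurd hlt (not_lt.2 ?_)
  have hz : ∀ x ∈ insert o A, ‖T (deltaF o' (f x)) - deltaF o' (f x)‖ ≤ r := fun x hx =>
    hcon _ (Finset.mem_image_of_mem f hx)
  have e1 : F (deltaF o x) = deltaF o' (f x) - deltaF o' (f o) := H117.push_delta _ C hC hdf x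
  have e2 : G (deltaF o' (f x) - deltaF o' (f o)) = g (f x) - g (f o) := by
    rw [map_sub, H117.push_delta, H117.push_delta]; abel
  have e3 : (G.comp (T.comp F)) (deltaF o x) - deltaF o x =
      G ((T (deltaF o' (f x)) - deltaF o' (f x)) - (T (deltaF o' (f o)) - deltaF o' (f o))) +
        ((g (f x) - deltaF o x) - (g (f o) - deltaF o o)) := by
    have : (G.comp (T.comp F)) (deltaF o x) = G (T (F (deltaF o x))) := rfl
    rw [this, e1, H117.deltaF_base]
    have e4 : (T (deltaF o' (f x)) - deltaF o' (f x)) - (T (deltaF o' (f o)) - deltaF o' (f o)) =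
        T (deltaF o' (f x) - deltaF o' (f o)) - (deltaF o' (f x) - deltaF o' (f o)) := by
      rw [map_sub]; abel
    rw [e4, map_sub (f := G), e2]
    abel
  rw [e3]
  refine (norm_add_le _ _).trans (add_le_add ?_ ?_)
  · refine (G.le_opNorm _).trans
      (mul_le_mul (H117.norm_push_le g C' hC' hg) ?_ (norm_nonneg _) hC')
    refine (norm_sub_le _ _).trans ?_
    have h1 := hz x (Finset.mem_insert_of_mem hx)
    have h2 := hz o (Finset.mem_insert_self _ _)
    linarith
  · refine (norm_sub_le _ _).trans ?_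
    have h1 := hgf x (Finset.mem_insert_of_mem hx)
    have h2 := hgf o (Finset.mem_insert_self _ _)
    linarith

end Local

section Walks

/-- The path metric of a connected graph. -/
@[reducible] def pathMetric {V : Type} (G : SimpleGraph V) (hG : G.Connected) : MetricSpace V where
  dist u v := (G.dist u v : ℝ)
  dist_self u := by rw [SimpleGraph.dist_self]; exact Nat.cast_zero
  dist_comm u v := by rw [SimpleGraph.dist_comm]
  dist_triangle u v w := by exact_mod_cast hG.dist_triangle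
  eq_of_dist_eq_zero := by
    intro u v h
    exact hG.dist_eq_zero_iff.1 (by exact_mod_cast h)

variable {V X : Type} [NormedAddCommGroup X] {G : SimpleGraph V}

/-- Chains along a dense sequence. -/
theorem exists_walk [NormedSpace ℝ X] {I : Type} {u : I → X} (hu : DenseRange u) (v : I → V)
    (step : ∀ a b, ‖u a - u b‖ ≤ 1 → ∃ w : G.Walk (v a) (v b), w.length ≤ 1) :
    ∀ (n : ℕ) (a b : I), ‖u a - u b‖ < n + 1 → ∃ w : G.Walk (v a) (v b), w.length ≤ n + 1 := by
  intro n
  induction n with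
  | zero =>
    intro a b h
    exact step a b (by simpa using h.le)
  | succ n ih =>
    intro a b h
    have hn : (0 : ℝ) < (n : ℝ) + 2 := by positivity
    set p : X := u a + (1 / ((n : ℝ) + 2)) • (u b - u a) with hp
    have h1 : ‖u a - p‖ = ‖u a - u b‖ / ((n : ℝ) + 2) := by
      rw [norm_sub_rev, hp, add_sub_cancel_left, norm_smul, Real.norm_eq_abs,
        abs_of_pos (by positivity), norm_sub_rev]
      ring
    have h2 : ‖p - u b‖ = ‖u a - u b‖ * (((n : ℝ) + 1) / ((n : ℝ) + 2)) := by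
      have e : p - u b = (((n : ℝ) + 1) / ((n : ℝ) + 2)) • (u a - u b) := by
        have e1 : ((n : ℝ) + 1) / ((n : ℝ) + 2) = 1 - 1 / ((n : ℝ) + 2) := by
          field_simp
          ring
        rw [hp, e1, sub_smul, one_smul, smul_sub, smul_sub]
        abel
      rw [e, norm_smul, Real.norm_eq_abs, abs_of_pos (by positivity)]
      ring
    push_cast at h
    have h3 : ‖u a - p‖ < 1 := by
      rw [h1, div_lt_iff₀ hn]
      linarith
    have h4 : ‖p - u b‖ < (n : ℝ) + 1 := by
      rw [h2, ← mul_div_assoc, div_lt_iff₀ hn]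
      have : (0 : ℝ) < (n : ℝ) + 1 := by positivity
      nlinarith
    have ho1 : IsOpen {y : X | ‖u a - y‖ < 1} := isOpen_lt (by fun_prop) continuous_const
    have ho2 : IsOpen {y : X | ‖y - u b‖ < (n : ℝ) + 1} := isOpen_lt (by fun_prop) continuous_const
    obtain ⟨c, hc1, hc2⟩ := hu.exists_mem_open (ho1.inter ho2) ⟨p, h3, h4⟩
    obtain ⟨w1, hw1⟩ := step a c (le_of_lt hc1)
    obtain ⟨w2, hw2⟩ := ih c b hc2
    exact ⟨w1.append w2, by rw [SimpleGraph.Walk.length_append]; omega⟩

theorem dist_le_of_step [NormedSpace ℝ X] {I : Type} {u : I → X} (hu : DenseRange u) (v : I → V)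
    (step : ∀ a b, ‖u a - u b‖ ≤ 1 → ∃ w : G.Walk (v a) (v b), w.length ≤ 1) (a b : I) :
    (G.dist (v a) (v b) : ℝ) ≤ ‖u a - u b‖ + 1 := by
  obtain ⟨w, hw⟩ := exists_walk hu v step ⌊‖u a - u b‖⌋₊ a b (Nat.lt_floor_add_one _)
  have h1 : G.dist (v a) (v b) ≤ ⌊‖u a - u b‖⌋₊ + 1 := (SimpleGraph.dist_le w).trans hw
  have h2 : ((G.dist (v a) (v b) : ℕ) : ℝ) ≤ (⌊‖u a - u b‖⌋₊ : ℝ) + 1 := by exact_mod_cast h1
  have h3 := Nat.floor_le (norm_nonneg (u a - u b))
  linarith

theorem norm_le_length {g : V → X} {C : ℝ} (hg : ∀ a b, G.Adj a b → ‖g a - g b‖ ≤ C) {a b : V}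
    (w : G.Walk a b) : ‖g a - g b‖ ≤ C * w.length := by
  induction w with
  | nil => simp
  | @cons a b c h w ih =>
    have h1 := hg a b h
    rw [SimpleGraph.Walk.length_cons]
    push_cast
    have h2 := norm_sub_le_norm_sub_add_norm_sub (g a) (g b) (g c)
    linarith

end Walks

section Lacunary

/-- the sum of the absolute values of the coefficients is at most `c` -/
def Short (g : ℕ →₀ ℤ) (c : ℤ) : Prop := ∀ s : Finset ℕ, ∑ n ∈ s, |g n| ≤ c

theorem Short.zero : Short 0 0 := fun s => by simp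

theorem Short.mono {g : ℕ →₀ ℤ} {c d : ℤ} (h : Short g c) (hcd : c ≤ d) : Short g d :=
  fun s => (h s).trans hcd

theorem Short.add {g h : ℕ →₀ ℤ} {c d : ℤ} (hg : Short g c) (hh : Short h d) :
    Short (g + h) (c + d) := fun s => by
  refine le_trans ?_ (add_le_add (hg s) (hh s))
  rw [← Finset.sum_add_distrib]
  exact Finset.sum_le_sum fun n _ => abs_add_le _ _

theorem Short.neg {g : ℕ →₀ ℤ} {c : ℤ} (hg : Short g c) : Short (-g) c := fun s => by
  simpa using hg s

theorem Short.sub {g h : ℕ →₀ ℤ} {c d : ℤ} (hg : Short g c) (hh : Short h d) :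
    Short (g - h) (c + d) := by
  rw [sub_eq_add_neg]
  exact hg.add hh.neg

theorem Short.single (n : ℕ) : Short (Finsupp.single n 1) 1 := fun s => by
  have h : ∀ m ∈ s, |(Finsupp.single n (1 : ℤ)) m| = if n = m then 1 else 0 := by
    intro m _
    rw [Finsupp.single_apply]
    split_ifs <;> simp
  rw [Finset.sum_congr rfl h, Finset.sum_ite_eq]
  split_ifs <;> simp

/-- the map to the integers -/
def rho : (ℕ →₀ ℤ) →ₗ[ℤ] ℤ := Finsupp.linearCombination ℤ fun n => ((n + 1).factorial : ℤ)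

theorem rho_single (n : ℕ) : rho (Finsupp.single n 1) = ((n + 1).factorial : ℤ) := by
  simp [rho]

/-- short relations only involve small indices -/
theorem eq_zero_of_rho {g : ℕ →₀ ℤ} {k : ℕ} (h0 : rho g = 0) (hs : Short g k) {n : ℕ}
    (hn : k ≤ n) : g n = 0 := by
  by_contra hne
  have hmem : n ∈ g.support := Finsupp.mem_support_iff.2 hne
  set i := g.support.max' ⟨n, hmem⟩ with hi
  have hni : n ≤ i := Finset.le_max' _ _ hmem
  have hgi : g i ≠ 0 := Finsupp.mem_support_iff.1 (Finset.max'_mem _ _)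
  have hsub : g.support ⊆ Finset.range (i + 1) := fun m hm =>
    Finset.mem_range.2 (Nat.lt_succ_of_le (Finset.le_max' _ _ hm))
  have h1 : rho g = ∑ m ∈ Finset.range (i + 1), g m * ((m + 1).factorial : ℤ) := by
    rw [rho, Finsupp.linearCombination_apply, Finsupp.sum_of_support_subset g hsub _ (by simp)]
    rfl
  rw [h0, Finset.sum_range_succ] at h1
  have h2 : |g i * ((i + 1).factorial : ℤ)| ≤ k * (i.factorial : ℤ) := by
    have e : g i * ((i + 1).factorial : ℤ) =
        -∑ m ∈ Finset.range i, g m * ((m + 1).factorial : ℤ) := by linarith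
    rw [e, abs_neg]
    refine (Finset.abs_sum_le_sum_abs _ _).trans ?_
    refine le_trans ?_ (mul_le_mul_of_nonneg_right (hs (Finset.range i)) (by positivity))
    rw [Finset.sum_mul]
    refine Finset.sum_le_sum fun m hm => ?_
    rw [abs_mul, Nat.abs_cast]
    refine mul_le_mul_of_nonneg_left ?_ (abs_nonneg _)
    exact_mod_cast Nat.factorial_le (Finset.mem_range.1 hm)
  rw [abs_mul, Nat.abs_cast, Nat.factorial_succ] at h2
  have h3 : 1 ≤ |g i| := Int.one_le_abs hgi
  have h4 : (0 : ℤ) < i.factorial := by exact_mod_cast Nat.factorial_pos i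
  have h5 : (k : ℤ) ≤ i := by exact_mod_cast hn.trans hni
  push_cast at h2
  nlinarith [mul_le_mul_of_nonneg_right h3 (show (0 : ℤ) ≤ ((i : ℤ) + 1) * i.factorial by
    positivity), mul_le_mul_of_nonneg_right h5 h4.le]

variable {X : Type} [NormedAddCommGroup X] (u : ℕ → X)

/-- the `k`-th map to the Banach space -/
def jj (k : ℕ) : (ℕ →₀ ℤ) →ₗ[ℤ] X :=
  Finsupp.linearCombination ℤ fun n => if n.unpair.1 = k + 1 then u n.unpair.2 else 0

theorem jj_single (k l m : ℕ) :
    jj u k (Finsupp.single (Nat.pair l m) 1) = if l = k + 1 then u m else 0 := by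
  simp [jj]

theorem jj_eq_zero {g : ℕ →₀ ℤ} {k : ℕ} (h0 : rho g = 0) (hs : Short g k) : jj u k g = 0 := by
  rw [jj, Finsupp.linearCombination_apply, Finsupp.sum]
  refine Finset.sum_eq_zero fun n hn => ?_
  split_ifs with h
  · have h1 : k ≤ n := by
      have := Nat.unpair_left_le n
      omega
    rw [eq_zero_of_rho h0 hs h1, zero_smul]
  · rw [smul_zero]

/-- `t` is represented by a word of size `n` -/
def Rep (t : ℤ) (n : ℕ) : Prop :=
  ∃ g : ℕ →₀ ℤ, rho g = t ∧ Short g (2 * n) ∧ ∀ k, ‖jj u k g‖ ≤ n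

variable {u}

theorem Rep.zero : Rep u 0 0 := ⟨0, map_zero _, by simpa using Short.zero, fun k => by simp⟩

theorem Rep.zero_one : Rep u 0 1 :=
  ⟨0, map_zero _, Short.zero.mono (by norm_num), fun k => by simp⟩

theorem Rep.one : Rep u 1 1 := by
  refine ⟨Finsupp.single 0 1, by simp [rho_single], (Short.single 0).mono (by norm_num),
    fun k => ?_⟩
  have h := jj_single u k 0 0
  rw [show Nat.pair 0 0 = 0 from rfl] at h
  rw [h]
  simp

theorem Rep.neg {t : ℤ} {n : ℕ} (h : Rep u t n) : Rep u (-t) n := by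
  obtain ⟨g, h1, h2, h3⟩ := h
  exact ⟨-g, by rw [map_neg, h1], h2.neg, fun k => by rw [map_neg, norm_neg]; exact h3 k⟩

theorem Rep.add {s t : ℤ} {m n : ℕ} (h : Rep u s m) (h' : Rep u t n) : Rep u (s + t) (m + n) := by
  obtain ⟨g, h1, h2, h3⟩ := h
  obtain ⟨g', h1', h2', h3'⟩ := h'
  refine ⟨g + g', by rw [map_add, h1, h1'], (h2.add h2').mono (by push_cast; linarith),
    fun k => ?_⟩
  rw [map_add]
  push_cast
  exact (norm_add_le _ _).trans (add_le_add (h3 k) (h3' k))

theorem Rep.pair (k : ℕ) {a b : ℕ} (h : ‖u a - u b‖ ≤ 1) :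
    Rep u (((Nat.pair (k + 1) b + 1).factorial : ℤ) - ((Nat.pair (k + 1) a + 1).factorial : ℤ))
      1 := by
  refine ⟨Finsupp.single (Nat.pair (k + 1) b) 1 - Finsupp.single (Nat.pair (k + 1) a) 1,
    by rw [map_sub, rho_single, rho_single],
    ((Short.single _).sub (Short.single _)).mono (by norm_num), fun l => ?_⟩
  rw [map_sub, jj_single, jj_single]
  split_ifs
  · rw [norm_sub_rev]
    simpa using h
  · simp

theorem Rep.base (k : ℕ) {a : ℕ} (h : ‖u a‖ ≤ 1) :
    Rep u ((Nat.pair (k + 1) a + 1).factorial : ℤ) 1 := by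
  refine ⟨Finsupp.single (Nat.pair (k + 1) a) 1, rho_single _,
    (Short.single _).mono (by norm_num), fun l => ?_⟩
  rw [jj_single]
  split_ifs
  · simpa using h
  · simp

end Lacunary

section Main

variable {V X : Type} [NormedAddCommGroup X] {u : ℕ → X} {G : SimpleGraph V} {p : V → ℤ}

theorem walk_one (hG : ∀ a b, G.Adj a b ↔ a ≠ b ∧ Rep u (p b - p a) 1) {a b : V}
    (h : Rep u (p b - p a) 1) : ∃ w : G.Walk a b, w.length ≤ 1 := by
  rcases eq_or_ne a b with rfl | hab
  · exact ⟨SimpleGraph.Walk.nil, Nat.zero_le _⟩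
  · exact ⟨SimpleGraph.Walk.cons ((hG a b).2 ⟨hab, h⟩) SimpleGraph.Walk.nil, le_rfl⟩

theorem rep_walk (hG : ∀ a b, G.Adj a b ↔ a ≠ b ∧ Rep u (p b - p a) 1) {a b : V}
    (w : G.Walk a b) : Rep u (p b - p a) w.length := by
  induction w with
  | nil => simpa using Rep.zero
  | @cons a b c h w ih =>
    have h1 := ih.add ((hG a b).1 h).2
    rw [SimpleGraph.Walk.length_cons]
    rwa [show p c - p b + (p b - p a) = p c - p a by ring] at h1

theorem connected (hG : ∀ a b, G.Adj a b ↔ a ≠ b ∧ Rep u (p b - p a) 1)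
    (hp : Function.Surjective p) : G.Connected := by
  have key : ∀ (t : ℤ) (a b : V), p b - p a = t → G.Reachable a b := by
    intro t
    induction t using Int.induction_on with
    | zero =>
      intro a b h
      obtain ⟨w, -⟩ := walk_one hG (a := a) (b := b) (h ▸ Rep.zero_one)
      exact ⟨w⟩
    | succ t ih =>
      intro a b h
      obtain ⟨c, hc⟩ := hp (p b - 1)
      obtain ⟨w, -⟩ := walk_one hG (a := c) (b := b) (by
        rw [show p b - p c = 1 by omega]; exact Rep.one)
      exact (ih a c (by omega)).trans ⟨w⟩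
    | pred t ih =>
      intro a b h
      obtain ⟨c, hc⟩ := hp (p b + 1)
      obtain ⟨w, -⟩ := walk_one hG (a := c) (b := b) (by
        rw [show p b - p c = -1 by omega]; exact Rep.one.neg)
      exact (ih a c (by omega)).trans ⟨w⟩
  obtain ⟨a, -⟩ := hp 0
  exact { preconnected := fun a b => key _ a b rfl, nonempty := ⟨a⟩ }

/-- the cut-off function -/
def cut (R t : ℝ) : ℝ := max 0 (min 1 (2 - t / R))

theorem cut_nonneg (R t : ℝ) : 0 ≤ cut R t := le_max_left _ _

theorem cut_le_one (R t : ℝ) : cut R t ≤ 1 := max_le zero_le_one (min_le_left _ _)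

theorem cut_eq_one {R t : ℝ} (hR : 0 < R) (h : t ≤ R) : cut R t = 1 := by
  have h1 : t / R ≤ 1 := (div_le_one hR).2 h
  unfold cut
  rw [min_eq_left (by linarith), max_eq_right zero_le_one]

theorem cut_eq_zero {R t : ℝ} (hR : 0 < R) (h : 2 * R ≤ t) : cut R t = 0 := by
  have h1 : 2 ≤ t / R := (le_div_iff₀ hR).2 h
  unfold cut
  exact max_eq_left ((min_le_right _ _).trans (by linarith))

theorem cut_lip {R s t : ℝ} (hR : 0 < R) (h : |s - t| ≤ 1) : |cut R s - cut R t| ≤ 1 / R := by
  unfold cut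
  refine (abs_max_sub_max_le_max _ _ _ _).trans (max_le (by simp; positivity) ?_)
  refine (abs_min_sub_min_le_max _ _ _ _).trans (max_le (by simp; positivity) ?_)
  rw [show 2 - s / R - (2 - t / R) = -((s - t) / R) by ring, abs_neg, abs_div, abs_of_pos hR]
  gcongr

/-- The retraction: a Lipschitz map which agrees with `jj u k` on the short words. -/
theorem exists_retraction [NormedSpace ℝ X] (hG : ∀ a b, G.Adj a b ↔ a ≠ b ∧ Rep u (p b - p a) 1)
    (hc : G.Connected) (v₀ : V) (R : ℕ) (hR : 1 ≤ R) :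
    ∃ g : V → X, (∀ a b, G.Adj a b → ‖g a - g b‖ ≤ 4) ∧
      ∀ (a : V) (n : ℕ), G.dist v₀ a ≤ R → p a - p v₀ = ((n + 1).factorial : ℤ) →
        g a = jj u (8 * R + 6) (Finsupp.single n 1) := by
  have hrep : ∀ a, Rep u (p a - p v₀) (G.dist v₀ a) := by
    intro a
    obtain ⟨w, hw⟩ := hc.exists_walk_length_eq_dist v₀ a
    rw [← hw]
    exact rep_walk hG w
  choose h h1 h2 h3 using hrep
  have hR0 : (0 : ℝ) < R := by exact_mod_cast hR
  have hR1 : (1 : ℝ) ≤ R := by exact_mod_cast hR
  refine ⟨fun a => cut R (G.dist v₀ a) • jj u (8 * R + 6) (h a), fun a b hab => ?_,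
    fun a n ha hn => ?_⟩
  · have e1 : G.dist v₀ b ≤ G.dist v₀ a + 1 := by
      have := hc.dist_triangle (u := v₀) (v := a) (w := b)
      rwa [SimpleGraph.dist_eq_one_iff_adj.2 hab] at this
    have e2 : G.dist v₀ a ≤ G.dist v₀ b + 1 := by
      have := hc.dist_triangle (u := v₀) (v := b) (w := a)
      rwa [SimpleGraph.dist_eq_one_iff_adj.2 hab.symm] at this
    by_cases hbig : 2 * R ≤ G.dist v₀ a ∧ 2 * R ≤ G.dist v₀ b
    · simp only
      rw [cut_eq_zero hR0 (by exact_mod_cast hbig.1), cut_eq_zero hR0 (by exact_mod_cast hbig.2)]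
      simp
    have e3 : G.dist v₀ a ≤ 2 * R := by omega
    have e4 : G.dist v₀ b ≤ 2 * R := by omega
    obtain ⟨s, s1, s2, s3⟩ := ((hG a b).1 hab).2
    have e5 : jj u (8 * R + 6) (h b - h a - s) = 0 := by
      refine jj_eq_zero u (by rw [map_sub, map_sub, h1, h1, s1]; ring) ?_
      refine (((h2 b).sub (h2 a)).sub s2).mono ?_
      push_cast
      omega
    have e6 : ‖jj u (8 * R + 6) (h a) - jj u (8 * R + 6) (h b)‖ ≤ 1 := by
      rw [map_sub, map_sub, sub_eq_zero] at e5
      rw [norm_sub_rev, e5]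
      simpa using s3 _
    have e7 : |cut R (G.dist v₀ a) - cut R (G.dist v₀ b)| ≤ 1 / R := by
      refine cut_lip hR0 (abs_le.2 ⟨?_, ?_⟩)
      · have : ((G.dist v₀ b : ℕ) : ℝ) ≤ G.dist v₀ a + 1 := by exact_mod_cast e1
        linarith
      · have : ((G.dist v₀ a : ℕ) : ℝ) ≤ G.dist v₀ b + 1 := by exact_mod_cast e2
        linarith
    have e8 : ‖jj u (8 * R + 6) (h a)‖ ≤ 2 * R :=
      (h3 a _).trans (by exact_mod_cast e3)
    have e9 : cut R (G.dist v₀ a) • jj u (8 * R + 6) (h a) -
        cut R (G.dist v₀ b) • jj u (8 * R + 6) (h b) =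
        (cut R (G.dist v₀ a) - cut R (G.dist v₀ b)) • jj u (8 * R + 6) (h a) +
          cut R (G.dist v₀ b) • (jj u (8 * R + 6) (h a) - jj u (8 * R + 6) (h b)) := by
      rw [sub_smul, smul_sub]
      abel
    simp only
    rw [e9]
    refine (norm_add_le _ _).trans ?_
    rw [norm_smul, norm_smul, Real.norm_eq_abs, Real.norm_eq_abs, abs_of_nonneg (cut_nonneg _ _)]
    have e10 : |cut R (G.dist v₀ a) - cut R (G.dist v₀ b)| * ‖jj u (8 * R + 6) (h a)‖ ≤
        1 / R * (2 * R) := mul_le_mul e7 e8 (norm_nonneg _) (by positivity)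
    have e11 : cut R (G.dist v₀ b) * ‖jj u (8 * R + 6) (h a) - jj u (8 * R + 6) (h b)‖ ≤ 1 * 1 :=
      mul_le_mul (cut_le_one _ _) e6 (norm_nonneg _) zero_le_one
    have e12 : 1 / (R : ℝ) * (2 * R) = 2 := by field_simp
    linarith
  · simp only
    rw [cut_eq_one hR0 (by exact_mod_cast ha), one_smul, ← sub_eq_zero, ← map_sub]
    refine jj_eq_zero u (by rw [map_sub, h1, rho_single, hn, sub_self]) ?_
    refine ((h2 a).sub (Short.single n)).mono ?_
    push_cast
    omega

end Main

/-- The strong failure for the graph. -/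
theorem fails_graph {M V : Type} [MetricSpace M] {o : M} (hF : H117.Fails M o)
    (hM : ∀ x y : M, x ≠ y → 1 ≤ dist x y) {u : ℕ → ↥(LipSpan M o)} (hu : DenseRange u)
    {G : SimpleGraph V} {p : V → ℤ} (hG : ∀ a b, G.Adj a b ↔ a ≠ b ∧ Rep u (p b - p a) 1)
    (hp : Function.Surjective p) (hc : G.Connected) (o' : V) :
    letI := pathMetric G hc
    H117.Fails V o' := by
  let _ := pathMetric G hc
  choose σ hσ using hp
  have hm : ∀ x : M, ∃ m, ‖u m - deltaF o x‖ ≤ 1 := by
    intro x
    obtain ⟨m, hm⟩ := hu.exists_dist_lt (deltaF o x) one_pos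
    exact ⟨m, by rw [← dist_eq_norm, dist_comm]; exact hm.le⟩
  choose m hm using hm
  have hmd : ∀ x y, ‖u (m x) - u (m y)‖ ≤ dist x y + 2 := by
    intro x y
    have e : u (m x) - u (m y) =
        (u (m x) - deltaF o x) + (deltaF o x - deltaF o y) - (u (m y) - deltaF o y) := by abel
    rw [e]
    have e1 := norm_sub_le ((u (m x) - deltaF o x) + (deltaF o x - deltaF o y))
      (u (m y) - deltaF o y)
    have e2 := norm_add_le (u (m x) - deltaF o x) (deltaF o x - deltaF o y)
    have e3 := norm_deltaF_sub_le (o := o) x y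
    have e4 := hm x
    have e5 := hm y
    linarith
  refine fails_local hF 4 4 1 (by norm_num) (by norm_num) (fun A => ?_) o'
  obtain ⟨R, hR⟩ : ∃ R : ℕ, ∀ x ∈ A, dist o x + 4 ≤ R := by
    obtain ⟨c, hc⟩ := (A.finite_toSet.image fun x => dist o x + 4).bddAbove
    obtain ⟨R, hR⟩ := exists_nat_ge c
    exact ⟨R, fun x hx => (hc ⟨x, hx, rfl⟩).trans hR⟩
  obtain ⟨g, hg1, hg2⟩ := exists_retraction hG hc (σ 0) (R + 1) (by omega)
  set k : ℕ := 8 * (R + 1) + 6 with hk
  set v : ℕ → V := fun a => σ ((Nat.pair (k + 1) a + 1).factorial : ℤ) with hv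
  have step : ∀ a b, ‖u a - u b‖ ≤ 1 → ∃ w : G.Walk (v a) (v b), w.length ≤ 1 := by
    intro a b h
    refine walk_one hG ?_
    simp only [hv, hσ]
    exact Rep.pair k h
  have hd : ∀ x y, (G.dist (v (m x)) (v (m y)) : ℝ) ≤ dist x y + 3 := by
    intro x y
    have h1 := dist_le_of_step hu v step (m x) (m y)
    have h2 := hmd x y
    linarith
  refine ⟨fun x => v (m x), g, fun x y => ?_, fun a b => ?_, fun x hx => ?_⟩
  · rcases eq_or_ne x y with rfl | hxy
    · simp
    have h1 := hd x y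
    have h2 := hM x y hxy
    show (G.dist (v (m x)) (v (m y)) : ℝ) ≤ _
    linarith
  · obtain ⟨w, hw⟩ := hc.exists_walk_length_eq_dist a b
    show _ ≤ 4 * ((G.dist a b : ℕ) : ℝ)
    rw [← hw]
    exact norm_le_length hg1 w
  · have h0 : G.dist (σ 0) (v (m o)) ≤ 1 := by
      obtain ⟨w, hw⟩ := walk_one hG (a := σ 0) (b := v (m o)) (by
        simp only [hv, hσ, sub_zero]
        refine Rep.base k ?_
        have := hm o
        rwa [H117.deltaF_base, sub_zero] at this)
      exact (SimpleGraph.dist_le w).trans hw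
    have h1 : G.dist (σ 0) (v (m x)) ≤ R + 1 := by
      have e1 := hc.dist_triangle (u := σ 0) (v := v (m o)) (w := v (m x))
      have e2 := hd o x
      have e3 := hR x hx
      have e4 : (G.dist (v (m o)) (v (m x)) : ℝ) ≤ R := by linarith
      have e5 : G.dist (v (m o)) (v (m x)) ≤ R := by exact_mod_cast e4
      omega
    have h2 := hg2 (v (m x)) (Nat.pair (k + 1) (m x)) h1 (by simp only [hv, hσ, sub_zero])
    simp only
    rw [h2, jj_single, if_pos rfl]
    exact hm x

/-- **Cayley graphs.**  A group which maps onto the integers has a generating set whose Cayley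
graph has a free space without the bounded approximation property. -/
theorem exists_cayley (Γ : Type) [Group Γ] (π : Γ →* Multiplicative ℤ)
    (hπ : Function.Surjective π) :
    ∃ (S : Set Γ) (_ : MetricSpace Γ), (SimpleGraph.mulCayley S).Connected ∧
      (∀ a b : Γ, dist a b = (SimpleGraph.mulCayley S).dist a b) ∧
      ∀ o : Γ, ¬ FreeBAP Γ o := by
  have hsep : TopologicalSpace.SeparableSpace ↥(LipSpan MM (Glue.base blk)) :=
    separableSpace_lipSpan
  obtain ⟨u, hu⟩ := TopologicalSpace.exists_dense_seq ↥(LipSpan MM (Glue.base blk))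
  set p : Γ → ℤ := fun a => Multiplicative.toAdd (π a) with hpdef
  have hmul : ∀ a b, p (a * b) = p a + p b := by
    intro a b
    simp only [hpdef, map_mul, toAdd_mul]
  have hp : Function.Surjective p := fun t => by
    obtain ⟨a, ha⟩ := hπ (Multiplicative.ofAdd t)
    exact ⟨a, by simp only [hpdef, ha, toAdd_ofAdd]⟩
  set S : Set Γ := {g | Rep u (p g) 1} with hS
  have hG : ∀ a b, (SimpleGraph.mulCayley S).Adj a b ↔ a ≠ b ∧ Rep u (p b - p a) 1 := by
    intro a b
    rw [SimpleGraph.mulCayley_adj']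
    refine and_congr_right fun _ => ⟨?_, fun h => ?_⟩
    · rintro ⟨g, hg, rfl | rfl⟩
      · rw [hmul, add_sub_cancel_left]
        exact hg
      · rw [hmul, sub_add_cancel_left]
        exact Rep.neg hg
    · refine ⟨a⁻¹ * b, ?_, Or.inl (by group)⟩
      have e : p b = p a + p (a⁻¹ * b) := by rw [← hmul]; congr 1; group
      rw [e, add_sub_cancel_left] at h
      exact h
  have hc : (SimpleGraph.mulCayley S).Connected := connected hG hp
  exact ⟨S, pathMetric _ hc, hc, fun _ _ => rfl, fun o =>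
    @not_freeBAP Γ (pathMetric _ hc) o
      (fails_graph H117.fails_MM (fun _ _ h => glue_one_le blk h) hu hG hp hc o)⟩

end

end Vale.Agent.N090
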