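import Mathlib.Analysis.Normed.Lp.lpSpace
import Mathlib.Analysis.Normed.Module.FiniteDimension
import Mathlib.Topology.ContinuousMap.Bounded.Normed
import Mathlib.Topology.MetricSpace.Lipschitz
import Mathlib.Topology.UniformSpace.Equicontinuity

/-! Definitions: the Lipschitz-free space, the bounded approximation property, approximable spaces
and isomorphisms with a constant. -/

namespace Vale.Agent.N090

open Filter Topology

/-- The closed unit ball of `Lip₀(M)`: functions with Lipschitz constant at most `1` which vanish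
at the base point `o`. -/
def lipBall {M : Type} [MetricSpace M] (o : M) : Set (M → ℝ) :=
  {f | LipschitzWith 1 f ∧ f o = 0}

theorem continuous_eval {M : Type} [MetricSpace M] (o x : M) :
    Continuous fun f : lipBall o => f.1 x :=
  (continuous_apply x).comp continuous_subtype_val

theorem bound_eval {M : Type} [MetricSpace M] (o x : M) (f : lipBall o) : ‖f.1 x‖ ≤ dist x o := by
  simpa [f.2.2, Real.dist_eq] using f.2.1.dist_le_mul x o

/-- The evaluation functional `δ_x : f ↦ f x`, as a bounded function on the unit ball of `Lip₀(M)`.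
The supremum norm on the unit ball is the norm of the dual space `Lip₀(M)*`. -/
noncomputable def dirac {M : Type} [MetricSpace M] (o x : M) :
    BoundedContinuousFunction (lipBall o) ℝ :=
  BoundedContinuousFunction.ofNormedAddCommGroup (fun f => f.1 x) (continuous_eval o x) (dist x o)
    (bound_eval o x)

/-- The `lam`-bounded approximation property. -/
def BAPWith (lam : ℝ) (X : Type) [NormedAddCommGroup X] [NormedSpace ℝ X] : Prop :=
  ∀ K : Set X, IsCompact K → ∀ ε > 0, ∃ T : X →L[ℝ] X,
    FiniteDimensional ℝ (LinearMap.range (T : X →ₗ[ℝ] X)) ∧ ‖T‖ ≤ lam ∧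
      ∀ u ∈ K, ‖T u - u‖ < ε

/-- The closed linear span of the vectors `v i` has the bounded approximation property. -/
def SpanBAP {E I : Type} [NormedAddCommGroup E] [NormedSpace ℝ E] (v : I → E) : Prop :=
  ∃ lam : ℝ, 1 ≤ lam ∧ BAPWith lam (Submodule.span ℝ (Set.range v)).topologicalClosure

/-- The Lipschitz-free space `F(M)`, the closed linear span of the `δ_x`, has the bounded
approximation property. -/
def FreeBAP (M : Type) [MetricSpace M] (o : M) : Prop := SpanBAP (dirac o)

/-- The identity of `X` is the pointwise limit of an equi-uniformly continuous sequence of maps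
with relatively compact range. -/
def Approximable (X : Type) [MetricSpace X] : Prop :=
  ∃ φ : ℕ → X → X, UniformEquicontinuous φ ∧ (∀ n, IsCompact (closure (Set.range (φ n)))) ∧
    ∀ x, Tendsto (fun n => φ n x) atTop (𝓝 x)

/-- There is a linear bijection `e : Y → X` with `‖a‖ ≤ ‖e a‖ ≤ C ‖a‖`. -/
def Isomorphic (C : ℝ) (Y X : Type) [NormedAddCommGroup Y] [NormedSpace ℝ Y]
    [NormedAddCommGroup X] [NormedSpace ℝ X] : Prop :=
  ∃ e : Y ≃ₗ[ℝ] X, ∀ a, ‖a‖ ≤ ‖e a‖ ∧ ‖e a‖ ≤ C * ‖a‖

end Vale.Agent.N090
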