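import Vale.Agent.N090.Cayley

/-! The free space of a bounded uniformly discrete countable space is a renorming of `ℓ¹`. -/

namespace Vale.Agent.N090

open Vale.Agent.P090

set_option maxSynthPendingDepth 3

noncomputable section

variable {M : Type} [MetricSpace M] {o : M}

theorem summable_abs (a : lp (fun _ : ℕ => ℝ) 1) : Summable fun n => |a n| := by
  simpa using a.2.summable

theorem norm_eq_tsum (a : lp (fun _ : ℕ => ℝ) 1) : ‖a‖ = ∑' n, |a n| := by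
  rw [lp.norm_eq_tsum_rpow (by norm_num) a]
  simp

theorem summable_smul {D : ℝ} (hD : ∀ x y : M, dist x y ≤ D) (σ : ℕ → M)
    (a : lp (fun _ : ℕ => ℝ) 1) : Summable fun n => ‖a n • deltaF o (σ n)‖ := by
  refine Summable.of_nonneg_of_le (fun _ => norm_nonneg _) (fun n => ?_)
    ((summable_abs a).mul_left D)
  rw [norm_smul, Real.norm_eq_abs, mul_comm]
  exact mul_le_mul_of_nonneg_right ((norm_delta_le (σ n)).trans (hD _ _)) (abs_nonneg _)

theorem summable_smul' {D : ℝ} (hD : ∀ x y : M, dist x y ≤ D) (σ : ℕ → M)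
    (a : lp (fun _ : ℕ => ℝ) 1) : Summable fun n => a n • deltaF o (σ n) := by
  have := completeSpace_lipSpan (M := M) (o := o)
  exact (summable_smul hD σ a).of_norm

/-- the sum operator -/
def sumOp (o : M) {D : ℝ} (hD : ∀ x y : M, dist x y ≤ D) (σ : ℕ → M) :
    lp (fun _ : ℕ => ℝ) 1 →ₗ[ℝ] ↥(LipSpan M o) where
  toFun a := ∑' n, a n • deltaF o (σ n)
  map_add' a b := by
    rw [← Summable.tsum_add (summable_smul' hD σ a) (summable_smul' hD σ b)]
    refine tsum_congr fun n => ?_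
    rw [lp.coeFn_add, Pi.add_apply, add_smul]
  map_smul' c a := by
    rw [RingHom.id_apply, ← Summable.tsum_const_smul c (summable_smul' hD σ a)]
    refine tsum_congr fun n => ?_
    rw [lp.coeFn_smul, Pi.smul_apply, smul_eq_mul, mul_smul]

theorem sumOp_apply {D : ℝ} (hD : ∀ x y : M, dist x y ≤ D) (σ : ℕ → M)
    (a : lp (fun _ : ℕ => ℝ) 1) : sumOp o hD σ a = ∑' n, a n • deltaF o (σ n) := rfl

theorem norm_sumOp_le {D : ℝ} (hD : ∀ x y : M, dist x y ≤ D) (σ : ℕ → M)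
    (a : lp (fun _ : ℕ => ℝ) 1) : ‖sumOp o hD σ a‖ ≤ D * ‖a‖ := by
  rw [sumOp_apply, norm_eq_tsum, ← tsum_mul_left]
  refine (norm_tsum_le_tsum_norm (summable_smul hD σ a)).trans ?_
  refine Summable.tsum_le_tsum (fun n => ?_) (summable_smul hD σ a)
    ((summable_abs a).mul_left D)
  rw [norm_smul, Real.norm_eq_abs, mul_comm]
  exact mul_le_mul_of_nonneg_right ((norm_delta_le (σ n)).trans (hD _ _)) (abs_nonneg _)

theorem le_norm_sumOp {D : ℝ} (h1 : ∀ x y : M, x ≠ y → 1 ≤ dist x y)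
    (hD : ∀ x y : M, dist x y ≤ D) {σ : ℕ → M} (hσ : Function.Injective σ) (ho : ∀ n, σ n ≠ o)
    (a : lp (fun _ : ℕ => ℝ) 1) : ‖a‖ ≤ 2 * ‖sumOp o hD σ a‖ := by
  classical
  set f0 : M → ℝ := Function.extend σ (fun n => if 0 ≤ a n then 1 / 2 else -(1 / 2)) 0 with hf0
  have hσf : ∀ n, f0 (σ n) = if 0 ≤ a n then 1 / 2 else -(1 / 2) := fun n =>
    hσ.extend_apply _ _ n
  have hb : ∀ x, |f0 x| ≤ 1 / 2 := by
    intro x
    by_cases hx : ∃ n, σ n = x
    · obtain ⟨n, rfl⟩ := hx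
      rw [hσf]
      split_ifs
      · rw [abs_of_pos (by norm_num)]
      · rw [abs_neg, abs_of_pos (by norm_num)]
    · rw [hf0, Function.extend_apply' _ _ _ hx]
      simp
  have hlip : ∀ x y, |f0 x - f0 y| ≤ 1 * dist x y := by
    intro x y
    rcases eq_or_ne x y with rfl | hxy
    · simp
    have e1 := abs_sub (f0 x) (f0 y)
    have e2 := hb x
    have e3 := hb y
    have e4 := h1 x y hxy
    linarith
  have h0 : f0 o = 0 := by
    rw [hf0, Function.extend_apply' _ _ _ (by rintro ⟨n, hn⟩; exact ho n hn)]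
    rfl
  set f : Lip0 M o := mkLip f0 1 hlip h0 with hf
  have hfn : ‖f‖ ≤ 1 := norm_mkLip_le f0 1 zero_le_one hlip h0
  set ev : ↥(LipSpan M o) →L[ℝ] ℝ :=
    (ContinuousLinearMap.apply ℝ ℝ f).comp (LipSpan M o).subtypeL with hev
  have hev1 : ∀ x, ev (deltaF o x) = f0 x := fun x => rfl
  have hev2 : ∀ u : ↥(LipSpan M o), ev u ≤ ‖u‖ := by
    intro u
    have e1 : ‖(u : Lip0 M o →L[ℝ] ℝ) f‖ ≤ ‖(u : Lip0 M o →L[ℝ] ℝ)‖ * ‖f‖ :=
      ContinuousLinearMap.le_opNorm _ _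
    have e2 : ‖(u : Lip0 M o →L[ℝ] ℝ)‖ * ‖f‖ ≤ ‖(u : Lip0 M o →L[ℝ] ℝ)‖ * 1 :=
      mul_le_mul_of_nonneg_left hfn (norm_nonneg _)
    have e3 : ev u = (u : Lip0 M o →L[ℝ] ℝ) f := rfl
    have e4 : ‖u‖ = ‖(u : Lip0 M o →L[ℝ] ℝ)‖ := rfl
    rw [e3, e4]
    rw [Real.norm_eq_abs] at e1
    linarith [le_abs_self ((u : Lip0 M o →L[ℝ] ℝ) f)]
  have h2 : ev (sumOp o hD σ a) = 1 / 2 * ‖a‖ := by
    rw [sumOp_apply, ev.map_tsum (summable_smul' hD σ a), norm_eq_tsum, ← tsum_mul_left]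
    refine tsum_congr fun n => ?_
    rw [map_smul, hev1, hσf, smul_eq_mul]
    split_ifs with h
    · rw [abs_of_nonneg h]; ring
    · rw [abs_of_neg (not_le.1 h)]; ring
  have h3 := hev2 (sumOp o hD σ a)
  linarith

theorem sumOp_single {D : ℝ} (hD : ∀ x y : M, dist x y ≤ D) (σ : ℕ → M) (n : ℕ) :
    sumOp o hD σ (lp.single 1 n (1 : ℝ)) = deltaF o (σ n) := by
  rw [sumOp_apply, tsum_eq_single n]
  · rw [lp.single_apply_self, one_smul]
  · intro m hm
    rw [lp.single_apply_ne _ _ _ hm, zero_smul]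

/-- `F(M)` is a renorming of `ℓ¹`. -/
theorem exists_equiv {D : ℝ} (h1 : ∀ x y : M, x ≠ y → 1 ≤ dist x y)
    (hD : ∀ x y : M, dist x y ≤ D) {σ : ℕ → M} (hσ : Function.Injective σ) (ho : ∀ n, σ n ≠ o)
    (hs : ∀ x, x ≠ o → ∃ n, σ n = x) :
    ∃ e : lp (fun _ : ℕ => ℝ) 1 ≃ₗ[ℝ] ↥(LipSpan M o),
      ∀ a, ‖a‖ ≤ 2 * ‖e a‖ ∧ ‖e a‖ ≤ D * ‖a‖ := by
  set T : lp (fun _ : ℕ => ℝ) 1 →L[ℝ] ↥(LipSpan M o) :=
    (sumOp o hD σ).mkContinuous D (norm_sumOp_le hD σ) with hT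
  have hTa : ∀ a, T a = sumOp o hD σ a := fun a => rfl
  have hanti : AntilipschitzWith 2 T :=
    T.antilipschitz_of_bound (K := 2) fun a => by
      simpa [hTa] using le_norm_sumOp h1 hD hσ ho a
  have hcl : IsClosed (Set.range T) := hanti.isClosed_range T.uniformContinuous
  have hsurj : Function.Surjective (sumOp o hD σ) := by
    intro u
    have hd := (H117.isLipFree_lipSpan (M := M) (o := o)).dense
    have h2 : Submodule.span ℝ (Set.range (deltaF o)) ≤ LinearMap.range (sumOp o hD σ) := by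
      rw [Submodule.span_le]
      rintro _ ⟨x, rfl⟩
      rcases eq_or_ne x o with rfl | hx
      · rw [H117.deltaF_base]
        exact Submodule.zero_mem _
      · obtain ⟨n, rfl⟩ := hs x hx
        exact ⟨_, sumOp_single hD σ n⟩
    have h3 : (Submodule.span ℝ (Set.range (deltaF o)) : Set ↥(LipSpan M o)) ⊆ Set.range T := h2
    exact closure_minimal h3 hcl (hd u)
  exact ⟨LinearEquiv.ofBijective (sumOp o hD σ) ⟨hanti.injective, hsurj⟩, fun a =>
    ⟨le_norm_sumOp h1 hD hσ ho a, norm_sumOp_le hD σ a⟩⟩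

/-- **Renormings of `ℓ¹`.** -/
theorem exists_renorming (lam : ℝ) (hlam : 1 ≤ lam) :
    ∃ (X : Type) (_ : NormedAddCommGroup X) (_ : NormedSpace ℝ X),
      Isomorphic (2 * (52 * lam + 65) ^ 2) (lp (fun _ : ℕ => ℝ) 1) X ∧ ¬ BAPWith lam X := by
  have hx : 0 ≤ 52 * lam + 64 := by linarith
  obtain ⟨k, hk, hk2⟩ : ∃ k : ℕ, 52 * lam + 64 ≤ (k : ℝ) + 1 ∧ (k : ℝ) + 1 ≤ 52 * lam + 65 := by
    have h0 : 1 ≤ ⌈52 * lam + 64⌉₊ := Nat.one_le_ceil_iff.2 (by linarith)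
    obtain ⟨k, hk⟩ : ∃ k, ⌈52 * lam + 64⌉₊ = k + 1 := ⟨⌈52 * lam + 64⌉₊ - 1, by omega⟩
    have h1 := Nat.le_ceil (52 * lam + 64)
    have h2 := (Nat.ceil_lt_add_one hx).le
    rw [hk] at h1 h2
    push_cast at h1 h2
    exact ⟨k, h1, by linarith⟩
  set o : MG fun _ => k := Glue.base fun _ => blk k with ho
  have hD : ∀ p q : MG fun _ => k, dist p q ≤ (52 * lam + 65) ^ 2 := by
    intro p q
    rw [glue_dist]
    have h1 : gd (fun _ => blk k) p q ≤ RR k := gd_le_of_const (blk k) p q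
    have h2 : ((gd (fun _ => blk k) p q : ℕ) : ℝ) ≤ (RR k : ℝ) := by exact_mod_cast h1
    refine h2.trans ?_
    unfold RR
    push_cast
    have : (0 : ℝ) ≤ (k : ℝ) + 1 := by positivity
    exact pow_le_pow_left₀ this hk2 2
  have hinf : Infinite {x : MG fun _ => k // x ≠ o} := by
    refine Infinite.of_injective (fun i : ℕ => (⟨Glue.inc (fun _ => blk k) i (anc k 1),
      fun h => Glue.base_not_mem (fun _ => blk k) i ⟨_, h⟩⟩ : {x : MG fun _ => k // x ≠ o})) ?_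
    intro i j h
    have h1 := congrArg Subtype.val h
    have h2 : (⟨i, anc k 1⟩ : Σ _ : ℕ, (blk k).X) = ⟨j, anc k 1⟩ := Option.some.inj h1
    exact congrArg Sigma.fst h2
  obtain ⟨τ⟩ : Nonempty (ℕ ≃ {x : MG fun _ => k // x ≠ o}) := nonempty_equiv_of_countable
  obtain ⟨e, he⟩ := exists_equiv (o := o) (fun _ _ h => glue_one_le _ h) hD
    (σ := fun n => (τ n).1) (Subtype.val_injective.comp τ.injective) (fun n => (τ n).2)
    (fun x hx => ⟨τ.symm ⟨x, hx⟩, by simp⟩)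
  refine ⟨↥(LipSpan _ o), inferInstance, inferInstance,
    ⟨e.trans (LinearEquiv.smulOfNeZero ℝ _ (2 : ℝ) two_ne_zero), fun a => ?_⟩,
    fun h => no_bapWith (fun _ => k) 0 lam hlam hk h⟩
  have h1 : ‖(e.trans (LinearEquiv.smulOfNeZero ℝ _ (2 : ℝ) two_ne_zero)) a‖ = 2 * ‖e a‖ := by
    rw [LinearEquiv.trans_apply, LinearEquiv.smulOfNeZero_apply, norm_smul, Real.norm_eq_abs,
      abs_two]
  rw [h1]
  refine ⟨(he a).1, ?_⟩
  have := (he a).2
  linarith

end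

end Vale.Agent.N090
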