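import Vale.Agent.N090.Defs
import Vale.Agent.P090.H117.Func

/-! The model of the free space inside the bounded functions on the unit ball of `Lip₀(M)`. -/

namespace Vale.Agent.N090

open Vale.Agent.P090

noncomputable section

variable {M : Type} [MetricSpace M] {o : M}

/-- the free space -/
def Free (o : M) : Submodule ℝ (BoundedContinuousFunction (lipBall o) ℝ) :=
  (Submodule.span ℝ (Set.range (dirac o))).topologicalClosure

/-- `δ_x` as an element of the free space -/
def diracF (o x : M) : ↥(Free o) :=
  ⟨dirac o x, Submodule.le_topologicalClosure _ (Submodule.subset_span ⟨x, rfl⟩)⟩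

theorem isLipFree_free : H117.IsLipFree o ↥(Free o) (diracF o) where
  complete := by
    have hcl : IsClosed (Free o : Set (BoundedContinuousFunction (lipBall o) ℝ)) :=
      Submodule.isClosed_topologicalClosure _
    exact hcl.completeSpace_coe
  dense := by
    intro u
    rw [Metric.mem_closure_iff]
    intro ε hε
    have hu : (u : BoundedContinuousFunction (lipBall o) ℝ) ∈
        closure (Submodule.span ℝ (Set.range (dirac o)) :
          Set (BoundedContinuousFunction (lipBall o) ℝ)) := u.2
    obtain ⟨v, hv, hd⟩ := Metric.mem_closure_iff.1 hu ε hε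
    have h1 : Submodule.span ℝ (Set.range (dirac o)) =
        (Submodule.span ℝ (Set.range (diracF o))).map (Free o).subtype := by
      rw [Submodule.map_span, ← Set.range_comp]
      rfl
    rw [SetLike.mem_coe, h1] at hv
    obtain ⟨w, hw, rfl⟩ := hv
    exact ⟨w, hw, hd⟩
  norm := by
    intro a
    set u : BoundedContinuousFunction (lipBall o) ℝ :=
      ((a.sum fun x c => c • diracF o x : ↥(Free o)) : BoundedContinuousFunction (lipBall o) ℝ) with hu
    have hval : ∀ f : lipBall o, u f = a.sum fun x c => c * f.1 x := by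
      intro f
      rw [hu, Finsupp.sum, Finsupp.sum, Submodule.coe_sum, BoundedContinuousFunction.coe_sum, Finset.sum_apply]
      rfl
    set S : Set ℝ := {s : ℝ | ∃ f : M → ℝ, LipschitzWith 1 f ∧ f o = 0 ∧
      s = a.sum fun x c => c * f x} with hS
    have hle : ∀ s ∈ S, s ≤ ‖u‖ := by
      rintro s ⟨f, hf, hf0, rfl⟩
      have key : ∀ g : lipBall o, (a.sum fun x c => c * g.1 x) ≤ ‖u‖ := by
        intro g
        have h1 : ‖u g‖ ≤ ‖u‖ := u.norm_coe_le_norm g
        rw [hval, Real.norm_eq_abs] at h1
        exact (le_abs_self _).trans h1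
      exact key ⟨f, hf, hf0⟩
    have hne : S.Nonempty := ⟨0, fun _ => 0, LipschitzWith.const' 0, rfl, by simp⟩
    have hbd : BddAbove S := ⟨‖u‖, hle⟩
    have h0 : 0 ≤ sSup S := le_csSup hbd ⟨fun _ => 0, LipschitzWith.const' 0, rfl, by simp⟩
    refine le_antisymm ?_ (csSup_le hne hle)
    refine (BoundedContinuousFunction.norm_le h0).2 fun f => ?_
    change ‖u f‖ ≤ _
    rw [hval, Real.norm_eq_abs]
    refine abs_le.2 ⟨?_, le_csSup hbd ⟨f.1, f.2.1, f.2.2, rfl⟩⟩
    have h1 : (a.sum fun x c => c * (-f.1) x) ≤ sSup S :=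
      le_csSup hbd ⟨-f.1, f.2.1.neg, by simp [f.2.2], rfl⟩
    have h2 : (a.sum fun x c => c * (-f.1) x) = -a.sum fun x c => c * f.1 x := by
      simp [Finsupp.sum]
    linarith

/-- The strong failure implies the failure of the bounded approximation property. -/
theorem not_freeBAP (hF : H117.Fails M o) : ¬ FreeBAP M o := by
  rintro ⟨lam, -, h⟩
  exact hF.not_hasCompactBAP isLipFree_free (H117.HasBAP.compact ⟨lam, h⟩)

end

end Vale.Agent.N090
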