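import Vale.Agent.N090.Model
import Mathlib.Topology.MetricSpace.Equicontinuity

/-! Consequences of the strong failure of the bounded approximation property: nets of a Banach
space, equi-uniformly continuous approximation of the identity. -/

namespace Vale.Agent.N090

open Vale.Agent.P090 Filter Topology

set_option maxSynthPendingDepth 3

noncomputable section

section General

variable {M N : Type} [MetricSpace M] [MetricSpace N] {o : M}

/-- Transfer of the strong failure to every metric space which is mapped to `F(M)` by a Lipschitz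
quasi-isometry. -/
theorem fails_of_coarse (hF : H117.Fails M o) (hM : ∀ x y : M, x ≠ y → 1 ≤ dist x y)
    (j : N → ↥(LipSpan M o)) (C : ℝ) (hC : 0 ≤ C)
    (h1 : ∀ a b, ‖j a - j b‖ ≤ C * dist a b)
    (h2 : ∀ a b, dist a b ≤ C * ‖j a - j b‖ + C)
    (h3 : ∀ x, ∃ a, ‖j a - x‖ ≤ C) (o' : N) : H117.Fails N o' := by
  choose g hg using h3
  refine hF.transfer (fun x => g (deltaF o x)) (C + (2 * C ^ 2 + C)) (by positivity)
    (fun x y => ?_) j C hC h1 C (fun x => hg _) o'
  rcases eq_or_ne x y with rfl | hxy
  · simp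
  have h4 := h2 (g (deltaF o x)) (g (deltaF o y))
  have h5 := hM x y hxy
  have h6 : ‖j (g (deltaF o x)) - j (g (deltaF o y))‖ ≤ dist x y + 2 * C := by
    have e : j (g (deltaF o x)) - j (g (deltaF o y)) =
        (j (g (deltaF o x)) - deltaF o x) + (deltaF o x - deltaF o y) -
          (j (g (deltaF o y)) - deltaF o y) := by abel
    rw [e]
    have e1 := norm_sub_le ((j (g (deltaF o x)) - deltaF o x) + (deltaF o x - deltaF o y))
      (j (g (deltaF o y)) - deltaF o y)
    have e2 := norm_add_le (j (g (deltaF o x)) - deltaF o x) (deltaF o x - deltaF o y)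
    have e3 := hg (deltaF o x)
    have e4 := hg (deltaF o y)
    have e5 := norm_deltaF_sub_le (o := o) x y
    linarith
  have h7 := mul_le_mul_of_nonneg_left h6 hC
  have h8 : (2 * C ^ 2 + C) * 1 ≤ (2 * C ^ 2 + C) * dist x y :=
    mul_le_mul_of_nonneg_left h5 (by positivity)
  nlinarith

theorem completeSpace_lipSpan : CompleteSpace ↥(LipSpan M o) :=
  (H117.isLipFree_lipSpan (M := M) (o := o)).complete

theorem separableSpace_lipSpan [Countable M] :
    TopologicalSpace.SeparableSpace ↥(LipSpan M o) := by
  have h : TopologicalSpace.IsSeparable (LipSpan M o : Set (Lip0 M o →L[ℝ] ℝ)) :=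
    ((Set.countable_range (delta o)).isSeparable.span (R := ℝ)).closure
  exact h.separableSpace

/-- Every coarsely dense subset of `F(M)` inherits the strong failure. -/
theorem fails_net (hF : H117.Fails M o) (hM : ∀ x y : M, x ≠ y → 1 ≤ dist x y)
    (S : Set ↥(LipSpan M o)) (C : ℝ) (hS : ∀ x, ∃ y ∈ S, dist x y ≤ C) (o' : S) :
    H117.Fails S o' := by
  have hC : 0 ≤ C := by
    obtain ⟨y, -, hy⟩ := hS 0
    exact dist_nonneg.trans hy
  refine fails_of_coarse hF hM (fun a : S => (a : ↥(LipSpan M o))) (C + 1) (by positivity)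
    (fun a b => ?_) (fun a b => ?_) (fun x => ?_) o'
  · rw [← dist_eq_norm, ← Subtype.dist_eq]
    nlinarith [dist_nonneg (x := a) (y := b)]
  · rw [← dist_eq_norm, ← Subtype.dist_eq]
    nlinarith [dist_nonneg (x := a) (y := b)]
  · obtain ⟨y, hy, hd⟩ := hS x
    refine ⟨⟨y, hy⟩, ?_⟩
    rw [← dist_eq_norm, dist_comm]
    linarith

end General

section Approximable

/-- A uniformly continuous map on a normed space is Lipschitz for large distances. -/
theorem chain {X Y : Type} [NormedAddCommGroup X] [NormedSpace ℝ X] [PseudoMetricSpace Y]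
    {φ : X → Y} {δ : ℝ} (h : ∀ x y, dist x y < δ → dist (φ x) (φ y) < 1) :
    ∀ (n : ℕ) (x y : X), dist x y < (n + 1) * δ → dist (φ x) (φ y) ≤ n + 1 := by
  intro n
  induction n with
  | zero =>
    intro x y hxy
    have := h x y (by simpa using hxy)
    simpa using this.le
  | succ n ih =>
    intro x y hxy
    have hn : (0 : ℝ) < (n : ℝ) + 2 := by positivity
    set p : X := x + (1 / ((n : ℝ) + 2)) • (y - x) with hp
    have h1 : dist x p = dist x y / ((n : ℝ) + 2) := by
      rw [dist_comm, dist_eq_norm, hp, add_sub_cancel_left, norm_smul, Real.norm_eq_abs,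
        abs_of_pos (by positivity), ← dist_eq_norm, dist_comm y x]
      ring
    have h2 : dist p y = dist x y * (((n : ℝ) + 1) / ((n : ℝ) + 2)) := by
      have e : p - y = (((n : ℝ) + 1) / ((n : ℝ) + 2)) • (x - y) := by
        have e1 : ((n : ℝ) + 1) / ((n : ℝ) + 2) = 1 - 1 / ((n : ℝ) + 2) := by
          field_simp
          ring
        rw [hp, e1, sub_smul, one_smul, smul_sub, smul_sub]
        abel
      rw [dist_eq_norm, e, norm_smul, Real.norm_eq_abs, abs_of_pos (by positivity), ← dist_eq_norm]
      ring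
    push_cast at hxy ⊢
    have h3 : dist x p < δ := by
      rw [h1, div_lt_iff₀ hn]
      linarith
    have h4 : dist p y < ((n : ℝ) + 1) * δ := by
      rw [h2, ← mul_div_assoc, div_lt_iff₀ hn]
      have : (0 : ℝ) < (n : ℝ) + 1 := by positivity
      nlinarith
    have h5 := h x p h3
    have h6 := ih p y h4
    have h7 := dist_triangle (φ x) (φ p) (φ y)
    linarith

theorem chain' {X Y : Type} [NormedAddCommGroup X] [NormedSpace ℝ X] [PseudoMetricSpace Y]
    {φ : X → Y} {δ : ℝ} (hδ : 0 < δ) (h : ∀ x y, dist x y < δ → dist (φ x) (φ y) < 1)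
    (x y : X) : dist (φ x) (φ y) ≤ dist x y / δ + 1 := by
  have h0 : 0 ≤ dist x y / δ := by positivity
  have h1 := Nat.lt_floor_add_one (dist x y / δ)
  have h2 := Nat.floor_le h0
  have h3 := chain h ⌊dist x y / δ⌋₊ x y (by rwa [div_lt_iff₀ hδ] at h1)
  linarith

variable {M : Type} [MetricSpace M] {o : M}

/-- The linear extension of a Lipschitz map with finitely many values is compact. -/
theorem push_compact (g : M → ↥(LipSpan M o)) (C : ℝ) (hC : 0 ≤ C)
    (hg : ∀ x y, ‖g x - g y‖ ≤ C * dist x y) {t : Set ↥(LipSpan M o)} (ht : t.Finite)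
    (hgt : ∀ x, g x ∈ t) : IsCompactOperator (H117.push o g C hC hg) := by
  set E : Submodule ℝ ↥(LipSpan M o) := Submodule.span ℝ t with hE
  have hfin : FiniteDimensional ℝ E := FiniteDimensional.span_of_finite ℝ ht
  have hcl : IsClosed (E : Set ↥(LipSpan M o)) := E.closed_of_finiteDimensional
  set T := H117.push o g C hC hg with hT
  have hmem : ∀ u, T u ∈ E := by
    intro u
    have hd := (H117.isLipFree_lipSpan (M := M) (o := o)).dense
    have h1 : (Submodule.span ℝ (Set.range (deltaF o)) : Set ↥(LipSpan M o)) ⊆ T ⁻¹' E := by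
      have h2 : Submodule.span ℝ (Set.range (deltaF o)) ≤
          E.comap (T : ↥(LipSpan M o) →ₗ[ℝ] ↥(LipSpan M o)) := by
        rw [Submodule.span_le]
        rintro _ ⟨x, rfl⟩
        show T (deltaF o x) ∈ E
        rw [hT, H117.push_delta]
        exact E.sub_mem (Submodule.subset_span (hgt x)) (Submodule.subset_span (hgt o))
      exact h2
    exact closure_minimal h1 (hcl.preimage T.continuous) (hd u)
  have : LocallyCompactSpace E := by
    have : ProperSpace E := FiniteDimensional.proper ℝ _
    infer_instance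
  have h1 : IsCompactOperator (T.codRestrict E hmem) :=
    isCompactOperator_of_locallyCompactSpace_dom (T.codRestrict E hmem)
  exact IsCompactOperator.clm_comp h1 E.subtypeL

/-- **No approximation of the identity by equi-uniformly continuous maps with relatively compact
range.** -/
theorem not_approximable (hF : H117.Fails M o) (hM : ∀ x y : M, x ≠ y → 1 ≤ dist x y) :
    ¬ ∃ φ : ℕ → ↥(LipSpan M o) → ↥(LipSpan M o), UniformEquicontinuous φ ∧
      (∀ n, IsCompact (closure (Set.range (φ n)))) ∧
      ∀ x, Tendsto (fun n => φ n x) atTop (𝓝 x) := by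
  classical
  rintro ⟨φ, h1, h2, h3⟩
  obtain ⟨δ, hδ, h4⟩ := Metric.uniformEquicontinuous_iff.1 h1 1 one_pos
  obtain ⟨A, hA⟩ := hF (1 / δ + 3) 4
  have hev : ∀ᶠ n in atTop, ∀ x ∈ insert o A, dist (φ n (deltaF o x)) (deltaF o x) < 1 := by
    rw [Filter.eventually_all_finset]
    intro x _
    exact Metric.tendsto_nhds.1 (h3 (deltaF o x)) 1 one_pos
  obtain ⟨n, hn⟩ := hev.exists
  obtain ⟨t, -, ht, hcov⟩ := (h2 n).finite_cover_balls one_pos
  have hch : ∀ x : M, ∃ y ∈ t, dist (φ n (deltaF o x)) y < 1 := by
    intro x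
    have := hcov (subset_closure ⟨deltaF o x, rfl⟩)
    simpa using this
  choose g hgt hg using hch
  have hC : (0 : ℝ) ≤ 1 / δ + 3 := by positivity
  have hlip : ∀ x y, ‖g x - g y‖ ≤ (1 / δ + 3) * dist x y := by
    intro x y
    rcases eq_or_ne x y with rfl | hxy
    · simp
    have e1 := chain' hδ (fun u v huv => h4 u v huv n) (deltaF o x) (deltaF o y)
    have e2 : dist (deltaF o x) (deltaF o y) ≤ dist x y := by
      rw [dist_eq_norm]
      exact norm_deltaF_sub_le x y
    have e3 : dist (deltaF o x) (deltaF o y) / δ ≤ dist x y / δ := by gcongr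
    have e4 := dist_triangle4 (g x) (φ n (deltaF o x)) (φ n (deltaF o y)) (g y)
    have e5 := hg x
    have e6 := hg y
    rw [dist_comm] at e5
    have e7 := hM x y hxy
    rw [← dist_eq_norm]
    calc dist (g x) (g y) ≤ dist x y / δ + 3 := by linarith
      _ ≤ dist x y / δ + 3 * dist x y := by linarith
      _ = (1 / δ + 3) * dist x y := by ring
  obtain ⟨x, hx, hlt⟩ := hA _ (push_compact g _ hC hlip ht hgt) (H117.norm_push_le g _ hC hlip)
  rw [H117.push_delta] at hlt
  have e1 : ‖g x - deltaF o x‖ ≤ 2 := by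
    rw [← dist_eq_norm]
    have e2 := dist_triangle (g x) (φ n (deltaF o x)) (deltaF o x)
    have e3 := hg x
    rw [dist_comm] at e3
    have e4 := hn x (Finset.mem_insert_of_mem hx)
    linarith
  have e5 : ‖g o - deltaF o o‖ ≤ 2 := by
    rw [← dist_eq_norm]
    have e2 := dist_triangle (g o) (φ n (deltaF o o)) (deltaF o o)
    have e3 := hg o
    rw [dist_comm] at e3
    have e4 := hn o (Finset.mem_insert_self _ _)
    linarith
  have e6 : g x - g o - deltaF o x = (g x - deltaF o x) - (g o - deltaF o o) := by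
    rw [H117.deltaF_base]
    abel
  rw [e6] at hlt
  have e7 := norm_sub_le (g x - deltaF o x) (g o - deltaF o o)
  linarith

end Approximable

end

end Vale.Agent.N090
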